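import Vale.Agent.P017.R3.H985.D1a

/-!
# P017 density project: D1b, the second half of the descent of system 2
-/

open Finset

namespace Vale.Agent.P017.R3.H816

open Vale.Agent.P017.R2.H985 (bit PF Pat sym Mat cork)
open Vale.Agent.P017.R2.H816
open Vale.Agent.P017.H185
open Vale.Agent.P017.R3.H985 (bit_dvd sum_pf)

theorem ker_zero_left {V : Type} [Fintype V] [DecidableEq V] (M : Matrix V V (ZMod 2))
    (h : ck M = 0) (x : V → ZMod 2) (hx : Matrix.vecMul x M = 0) : x = 0 := by
  have h0 : Module.finrank (ZMod 2) (LinearMap.ker M.vecMulLinear) = 0 := by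
    rw [finrank_left]; exact h
  have h1 : LinearMap.ker M.vecMulLinear = ⊥ := Submodule.finrank_eq_zero.mp h0
  have h2 : x ∈ LinearMap.ker M.vecMulLinear := by
    rw [LinearMap.mem_ker, Matrix.vecMulLinear_apply, hx]
  rw [h1] at h2
  exact (Submodule.mem_bot _).mp h2

theorem ext_vecMul {V : Type} [Fintype V] (M : Matrix V V (ZMod 2)) (φ ψ : V → ZMod 2)
    (w : ZMod 2) (x : Option V → ZMod 2) :
    (∀ q, Matrix.vecMul x (ext M φ ψ w) (some q) =
      Matrix.vecMul (fun a => x (some a)) M q + x none * ψ q) ∧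
    Matrix.vecMul x (ext M φ ψ w) none = (∑ q, x (some q) * φ q) + x none * w := by
  constructor
  · intro q
    rw [Matrix.vecMul, dotProduct, Fintype.sum_option, Matrix.vecMul, dotProduct, add_comm]
    rfl
  · rw [Matrix.vecMul, dotProduct, Fintype.sum_option, add_comm]
    rfl

theorem vecMul_Mat {m : ℕ} (w x : Pat m) (q : PF m) :
    Matrix.vecMul x (Mat m w) q =
      (∑ r : PF m, x r * bit ((q : ℕ) : ℤ) (r : ℕ)) +
        x q * (w q + ∑ r : PF m, bit ((r : ℕ) : ℤ) (q : ℕ)) := by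
  have hq : bit ((q : ℕ) : ℤ) (q : ℕ) = 0 := bit_self (Nat.prime_of_mem_primeFactors q.2)
  have h1 : ∑ r ∈ univ.erase q, bit ((r : ℕ) : ℤ) (q : ℕ) = ∑ r : PF m, bit ((r : ℕ) : ℤ) (q : ℕ) := by
    rw [← add_sum_erase univ _ (mem_univ q), hq, zero_add]
  rw [Matrix.vecMul, dotProduct]
  have h2 : ∀ r : PF m, x r * Mat m w r q = x r * bit ((q : ℕ) : ℤ) (r : ℕ) +
      if r = q then x q * (w q + ∑ r : PF m, bit ((r : ℕ) : ℤ) (q : ℕ)) else 0 := by
    intro r
    unfold Mat
    by_cases hr : q = r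
    · subst hr
      rw [if_pos rfl, if_pos rfl, h1, hq]; ring
    · rw [if_neg hr, if_neg (Ne.symm hr)]; ring
  rw [sum_congr rfl fun r _ => h2 r, sum_add_distrib, sum_ite_eq' univ q, if_pos (mem_univ _)]

/-- multiplicativity in the lower argument -/
theorem bit_mul_right {a : ℤ} {c e : ℕ} (hc0 : c ≠ 0) (he0 : e ≠ 0) (hc : jacobiSym a c ≠ 0)
    (he : jacobiSym a e ≠ 0) : bit a (c * e) = bit a c + bit a e := by
  have _ := NeZero.mk hc0
  have _ := NeZero.mk he0
  unfold bit
  rw [jacobiSym.mul_right]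
  rcases jacobiSym.trichotomy a c with h | h | h
  · exact absurd h hc
  · rcases jacobiSym.trichotomy a e with h' | h' | h'
    · exact absurd h' he
    · rw [h, h']; decide
    · rw [h, h']; decide
  · rcases jacobiSym.trichotomy a e with h' | h' | h'
    · exact absurd h' he
    · rw [h, h']; decide
    · rw [h, h']; decide

theorem bit_one_right (a : ℤ) : bit a 1 = 0 := by
  unfold bit
  rw [jacobiSym.one_right]
  rfl

theorem jacobi_prod_right_ne {ι : Type*} (S : Finset ι) (f : ι → ℕ) {a : ℤ}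
    (h0 : ∀ i ∈ S, f i ≠ 0) (h : ∀ i ∈ S, jacobiSym a (f i) ≠ 0) :
    jacobiSym a (∏ i ∈ S, f i) ≠ 0 := by
  classical
  induction S using Finset.induction_on with
  | empty => rw [prod_empty, jacobiSym.one_right]; norm_num
  | insert i S hi ih =>
    have _ := NeZero.mk (h0 i (mem_insert_self _ _))
    have _ := NeZero.mk (prod_ne_zero_iff.mpr fun j hj => h0 j (mem_insert_of_mem hj))
    rw [prod_insert hi, jacobiSym.mul_right]
    exact mul_ne_zero (h i (mem_insert_self _ _)) (ih (fun j hj => h0 j (mem_insert_of_mem hj))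
      fun j hj => h j (mem_insert_of_mem hj))

theorem bit_prod_right {ι : Type*} (S : Finset ι) (f : ι → ℕ) {a : ℤ}
    (h0 : ∀ i ∈ S, f i ≠ 0) (h : ∀ i ∈ S, jacobiSym a (f i) ≠ 0) :
    bit a (∏ i ∈ S, f i) = ∑ i ∈ S, bit a (f i) := by
  classical
  induction S using Finset.induction_on with
  | empty => rw [prod_empty, sum_empty, bit_one_right]
  | insert i S hi ih =>
    have h0' : ∀ j ∈ S, f j ≠ 0 := fun j hj => h0 j (mem_insert_of_mem hj)
    have h' : ∀ j ∈ S, jacobiSym a (f j) ≠ 0 := fun j hj => h j (mem_insert_of_mem hj)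
    rw [prod_insert hi, sum_insert hi, bit_mul_right (h0 i (mem_insert_self _ _))
      (prod_ne_zero_iff.mpr h0') (h i (mem_insert_self _ _)) (jacobi_prod_right_ne S f h0' h'),
      ih h0' h']

/-- `(q/c)` for a divisor `c` of `D` prime to `q` -/
theorem bit_dvd_right {D c q : ℕ} (hD : Squarefree D) (hc : c ∣ D) (hq : q.Prime) (hqc : ¬ q ∣ c) :
    jacobiSym (q : ℤ) c ≠ 0 ∧
    bit (q : ℤ) c = ∑ r ∈ D.primeFactors, if r ∣ c then bit (q : ℤ) r else 0 := by
  have h2 := prod_if_dvd hD hc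
  have h0 : ∀ r ∈ D.primeFactors, (if r ∣ c then r else 1) ≠ 0 := by
    intro r hr
    split_ifs with h
    · exact (Nat.prime_of_mem_primeFactors hr).ne_zero
    · exact one_ne_zero
  have h3 : ∀ r ∈ D.primeFactors, jacobiSym (q : ℤ) (if r ∣ c then r else 1) ≠ 0 := by
    intro r hr
    split_ifs with h
    · exact jac_ne hq (Nat.prime_of_mem_primeFactors hr) (fun h' => hqc (h' ▸ h))
    · rw [jacobiSym.one_right]; norm_num
  refine ⟨?_, ?_⟩
  · have h4 := jacobi_prod_right_ne (a := (q : ℤ)) D.primeFactors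
      (fun r => if r ∣ c then r else 1) h0 h3
    rwa [h2] at h4
  · have h4 := bit_prod_right (a := (q : ℤ)) D.primeFactors
      (fun r => if r ∣ c then r else 1) h0 h3
    rw [h2] at h4
    rw [h4]
    apply sum_congr rfl
    intro r hr
    split_ifs with h
    · rfl
    · exact bit_one_right _

/-- reciprocity for `b ≡ 1 mod 4` of either sign -/
theorem recip_int {b : ℤ} (hb : b % 4 = 1) {q : ℕ} (hq : Odd q) :
    jacobiSym b q = jacobiSym (q : ℤ) b.natAbs := by
  rcases Int.natAbs_eq b with h | h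
  · have h1 : b.natAbs % 4 = 1 := by omega
    conv_lhs => rw [h]
    exact jacobiSym.quadratic_reciprocity_one_mod_four h1 hq
  · have h1 : b.natAbs % 4 = 3 := by omega
    conv_lhs => rw [h]
    rw [jacobiSym.neg _ hq]
    have h2 : q % 4 = 1 ∨ q % 4 = 3 := by
      rcases hq with ⟨k, hk⟩; omega
    rcases h2 with h2 | h2
    · rw [ZMod.χ₄_nat_one_mod_four h2, one_mul,
        jacobiSym.quadratic_reciprocity_one_mod_four' (Nat.odd_iff.mpr (by omega)) h2]
    · rw [ZMod.χ₄_nat_three_mod_four h2,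
        jacobiSym.quadratic_reciprocity_three_mod_four h1 h2]
      ring

/-- reciprocity for `q δ ≡ 3 mod 4` -/
theorem recip_mul {q δ : ℕ} (h : (q * δ) % 4 = 3) :
    jacobiSym (q : ℤ) δ = jacobiSym (δ : ℤ) q := by
  have h1 : q % 4 = 0 ∨ q % 4 = 1 ∨ q % 4 = 2 ∨ q % 4 = 3 := by omega
  have h2 : δ % 4 = 0 ∨ δ % 4 = 1 ∨ δ % 4 = 2 ∨ δ % 4 = 3 := by omega
  have h3 : (q % 4 = 1 ∧ δ % 4 = 3) ∨ (q % 4 = 3 ∧ δ % 4 = 1) := by
    rw [Nat.mul_mod] at h
    rcases h1 with h1 | h1 | h1 | h1 <;> rcases h2 with h2 | h2 | h2 | h2 <;>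
      rw [h1, h2] at h <;> simp_all
  rcases h3 with ⟨h4, h5⟩ | ⟨h4, h5⟩
  · exact jacobiSym.quadratic_reciprocity_one_mod_four h4 (Nat.odd_iff.mpr (by omega))
  · exact jacobiSym.quadratic_reciprocity_one_mod_four' (Nat.odd_iff.mpr (by omega)) h5

/-- from the local conditions to the left kernel of the matrix -/
theorem lin2 {n p : ℕ} {b : ℤ} (hn : Squarefree n) (ho : Odd n) (h3 : ¬ 3 ∣ n)
    (hp : p.Prime) (p5 : 5 < p) (hpn : ¬ p ∣ n) (h4 : (n * p) % 4 = 3)
    (hd5 : (n * p) % 5 = 1 ∨ (n * p) % 5 = 4)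
    (hc : ck (ext (Mat n (sym n p)) (fun q => bit ((q : ℕ) : ℤ) 5)
      (fun q => bit ((q : ℕ) : ℤ) 3) 1) = 0)
    (hb : b.natAbs ∣ n * p * 3) (hb4 : b % 4 = 1) (hb5 : IsSquare (b : ZMod 5))
    (hloc : ∀ q δ : ℕ, q.Prime → q ∣ n → n * p = q * δ → (¬ (q : ℤ) ∣ b → IsSquare (b : ZMod q)) ∧
      (∀ β : ℤ, b = q * β → IsSquare ((-(δ * β) : ℤ) : ZMod q))) :
    b = 1 ∨ b = -((n * p : ℕ) : ℤ) := by
  classical
  have hn0 := hn.ne_zero
  have hp3 : p ≠ 3 := by omega
  have h3p : Nat.Prime 3 := Nat.prime_three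
  have h5p : Nat.Prime 5 := Nat.prime_five
  have hcop : Nat.Coprime n p := ((Nat.Prime.coprime_iff_not_dvd hp).mpr hpn).symm
  have hd : Squarefree (n * p) := (Nat.squarefree_mul hcop).mpr ⟨hn, hp.squarefree⟩
  have h3d : ¬ 3 ∣ n * p := by
    intro h
    rcases (Nat.Prime.dvd_mul h3p).mp h with h | h
    · exact h3 h
    · exact hp3 ((Nat.prime_dvd_prime_iff_eq h3p hp).mp h).symm
  have h5d : ¬ 5 ∣ n * p := by omega
  have hD : Squarefree (n * p * 3) :=
    (Nat.squarefree_mul ((Nat.Prime.coprime_iff_not_dvd h3p).mpr h3d).symm).mpr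
      ⟨hd, h3p.squarefree⟩
  have hqp : ∀ q : PF n, (q : ℕ).Prime := fun q => Nat.prime_of_mem_primeFactors q.2
  have hqn : ∀ q : PF n, (q : ℕ) ∣ n := fun q => Nat.dvd_of_mem_primeFactors q.2
  have hqo : ∀ q : PF n, Odd (q : ℕ) := fun q => Odd.of_dvd_nat ho (hqn q)
  have hsum : ∀ f : ℕ → ZMod 2, ∑ r ∈ (n * p * 3).primeFactors, f r =
      (∑ q : PF n, f q) + f p + f 3 := fun f => sum_pf hn0 hp h3p hpn h3 hp3 f
  obtain ⟨B, hB⟩ : ∃ B, B = b.natAbs := ⟨_, rfl⟩
  rw [← hB] at hb
  have hdB : ∀ q : ℕ, (q : ℤ) ∣ b ↔ q ∣ B := fun q => by rw [hB]; exact Int.natCast_dvd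
  -- the vector
  let y : ℕ → ZMod 2 := fun r => if r ∣ B then 1 else 0
  let v : Option (PF n) → ZMod 2 := fun a => match a with
    | some q => y q + y p
    | none => y 3
  have hby : ∀ q : ℕ, (∑ r ∈ (n * p * 3).primeFactors, if r ∣ B then bit (q : ℤ) r else 0) =
      (∑ r : PF n, y r * bit (q : ℤ) (r : ℕ)) + y p * bit (q : ℤ) p + y 3 * bit (q : ℤ) 3 := by
    intro q
    rw [hsum]
    have : ∀ r : ℕ, (if r ∣ B then bit (q : ℤ) r else 0) = y r * bit (q : ℤ) r := by
      intro r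
      simp only [y]
      split_ifs <;> simp
    rw [this p, this 3, sum_congr rfl fun (r : PF n) _ => this r]
  have h2 : ∀ t : ZMod 2, t + t = 0 := CharTwo.add_self_eq_zero
  have hv : v = 0 := by
    apply ker_zero_left _ hc
    have hext := ext_vecMul (Mat n (sym n p)) (fun q => bit ((q : ℕ) : ℤ) 5)
      (fun q => bit ((q : ℕ) : ℤ) 3) 1 v
    funext a
    rw [Pi.zero_apply]
    cases a with
    | some q =>
      rw [hext.1 q, vecMul_Mat]
      obtain ⟨δ, hδ⟩ : (q : ℕ) ∣ n * p := (hqn q).mul_right p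
      have hl := hloc q δ (hqp q) (hqn q) hδ
      have hqδ : ¬ (q : ℕ) ∣ δ := by
        intro h
        have : (q : ℕ) * q ∣ n * p := by rw [hδ]; exact Nat.mul_dvd_mul_left q h
        exact (hqp q).one_lt.ne' (Nat.isUnit_iff.mp (hd q this))
      have hδD : δ ∣ n * p * 3 := (Dvd.intro_left (q : ℕ) hδ.symm).mul_right 3
      -- the numerators
      have f1 : bit (δ : ℤ) q = (∑ r : PF n, bit ((r : ℕ) : ℤ) (q : ℕ)) + bit (p : ℤ) q := by
        rw [(bit_dvd hD (dvd_mul_right (n * p) 3) (hqp q)).2 δ hδ, hsum,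
          if_pos (dvd_mul_left p n), if_neg h3d, add_zero]
        congr 1
        apply sum_congr rfl
        intro r _
        rw [if_pos ((hqn r).mul_right p)]
      -- the denominators
      have f2 : bit ((q : ℕ) : ℤ) δ = (∑ r : PF n, bit ((q : ℕ) : ℤ) (r : ℕ)) +
          bit ((q : ℕ) : ℤ) p := by
        have hpδ : p ∣ δ := by
          have h : p ∣ (q : ℕ) * δ := hδ ▸ dvd_mul_left p n
          rcases (Nat.Prime.dvd_mul hp).mp h with h | h
          · exact absurd ((Nat.prime_dvd_prime_iff_eq hp (hqp q)).mp h ▸ hqn q) hpn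
          · exact h
        have h3δ : ¬ 3 ∣ δ := fun h => h3d (hδ ▸ h.mul_left (q : ℕ))
        rw [(bit_dvd_right hD hδD (hqp q) hqδ).2, hsum, if_pos hpδ, if_neg h3δ, add_zero]
        congr 1
        apply sum_congr rfl
        intro r _
        split_ifs with h
        · rfl
        · have h' : (r : ℕ) ∣ (q : ℕ) * δ := hδ ▸ (hqn r).mul_right p
          rcases (Nat.Prime.dvd_mul (hqp r)).mp h' with h' | h'
          · rw [(Nat.prime_dvd_prime_iff_eq (hqp r) (hqp q)).mp h', bit_self (hqp q)]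
          · exact absurd h' h
      have f3 : bit ((q : ℕ) : ℤ) δ = bit (δ : ℤ) q := by
        unfold bit
        rw [recip_mul (by rw [← hδ]; exact h4)]
      have hgoal : (∑ r : PF n, y r * bit ((q : ℕ) : ℤ) (r : ℕ)) + y p * bit ((q : ℕ) : ℤ) p +
          y 3 * bit ((q : ℕ) : ℤ) 3 + y q * bit (δ : ℤ) q = 0 := by
        rw [← hby]
        by_cases hqb : (q : ℤ) ∣ b
        · obtain ⟨β, hβ⟩ := hqb
          have hBβ : B = q * β.natAbs := by
            rw [hB, hβ, Int.natAbs_mul, Int.natAbs_natCast]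
          have hy1 : y q = 1 := if_pos ⟨_, hBβ⟩
          have hβD : β.natAbs ∣ n * p * 3 := (Dvd.intro_left (q : ℕ) hBβ.symm).trans hb
          have hqβ : ¬ (q : ℕ) ∣ β.natAbs := by
            intro h
            have : (q : ℕ) * q ∣ n * p * 3 := (Nat.mul_dvd_mul_left q h).trans (hBβ ▸ hb)
            exact (hqp q).one_lt.ne' (Nat.isUnit_iff.mp (hD q this))
          have g3 := bit_of_isSquare (hl.2 β hβ)
          have hmod : (-((δ : ℤ) * β)) % 4 = 1 := by
            have e1 : ((q : ℕ) : ℤ) * β % 4 = 1 := by rw [← hβ]; exact hb4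
            have e2 : ((q : ℕ) : ℤ) * δ % 4 = 3 := by
              have : (((q : ℕ) * δ : ℕ) : ℤ) % 4 = 3 := by rw [← hδ]; exact_mod_cast h4
              push_cast at this; exact this
            have e3 : ((q : ℕ) : ℤ) % 4 = 0 ∨ ((q : ℕ) : ℤ) % 4 = 1 ∨ ((q : ℕ) : ℤ) % 4 = 2 ∨
              ((q : ℕ) : ℤ) % 4 = 3 := by omega
            have e4 : (δ : ℤ) % 4 = 0 ∨ (δ : ℤ) % 4 = 1 ∨ (δ : ℤ) % 4 = 2 ∨ (δ : ℤ) % 4 = 3 := by
              omega
            have e5 : β % 4 = 0 ∨ β % 4 = 1 ∨ β % 4 = 2 ∨ β % 4 = 3 := by omega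
            have e6 : (δ : ℤ) * β % 4 = 3 := by
              rw [Int.mul_emod] at e1 e2 ⊢
              rcases e3 with e3 | e3 | e3 | e3 <;> rcases e4 with e4 | e4 | e4 | e4 <;>
                rcases e5 with e5 | e5 | e5 | e5 <;> rw [e3, e4] at e2 <;>
                rw [e3, e5] at e1 <;> rw [e4, e5] <;> revert e1 e2 <;> decide
            omega
          have g4 := recip_int hmod (hqo q)
          have g5 : (-((δ : ℤ) * β)).natAbs = δ * β.natAbs := by
            rw [Int.natAbs_neg, Int.natAbs_mul, Int.natAbs_natCast]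
          rw [g5] at g4
          have g6 : bit (-((δ : ℤ) * β)) q = bit ((q : ℕ) : ℤ) (δ * β.natAbs) := by
            unfold bit
            rw [g4]
          have hδ0 : δ ≠ 0 := by rintro rfl; exact hqδ (dvd_zero _)
          have hβ0 : β.natAbs ≠ 0 := fun h => hqβ (h ▸ dvd_zero _)
          have j1 := bit_dvd_right hD hδD (hqp q) hqδ
          have j2 := bit_dvd_right hD hβD (hqp q) hqβ
          rw [g6, bit_mul_right hδ0 hβ0 j1.1 j2.1, f3, j2.2] at g3
          rw [hy1, one_mul, add_comm]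
          refine Eq.trans ?_ g3
          congr 1
          apply sum_congr rfl
          intro r hr
          have hr' := Nat.prime_of_mem_primeFactors hr
          by_cases hrq : r = q
          · subst hrq
            rw [if_neg hqβ, bit_self (hqp q)]
            split_ifs <;> rfl
          · have : r ∣ B ↔ r ∣ β.natAbs := by
              rw [hBβ]
              constructor
              · intro h
                rcases (Nat.Prime.dvd_mul hr').mp h with h | h
                · exact absurd ((Nat.prime_dvd_prime_iff_eq hr' (hqp q)).mp h) hrq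
                · exact h
              · intro h; exact h.mul_left _
            by_cases h : r ∣ B
            · rw [if_pos h, if_pos (this.mp h)]
            · rw [if_neg h, if_neg (fun h' => h (this.mpr h'))]
        · have hqB : ¬ (q : ℕ) ∣ B := fun h => hqb ((hdB _).mpr h)
          have hy0 : y q = 0 := if_neg hqB
          have g3 := bit_of_isSquare (hl.1 hqb)
          have g4 := recip_int hb4 (hqo q)
          have g6 : bit b q = bit ((q : ℕ) : ℤ) B := by
            unfold bit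
            rw [g4, hB]
          rw [g6, (bit_dvd_right hD hb (hqp q) hqB).2] at g3
          rw [hy0, zero_mul, add_zero, g3]
      have e0 : (∑ r : PF n, (y r + y p) * bit ((q : ℕ) : ℤ) (r : ℕ)) =
          (∑ r : PF n, y r * bit ((q : ℕ) : ℤ) (r : ℕ)) +
            y p * ∑ r : PF n, bit ((q : ℕ) : ℤ) (r : ℕ) := by
        rw [mul_sum, ← sum_add_distrib]
        apply sum_congr rfl
        intro r _
        ring
      have hsymp : sym n p q = bit (p : ℤ) q := rfl
      show (∑ r : PF n, (y r + y p) * bit ((q : ℕ) : ℤ) (r : ℕ)) +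
        (y q + y p) * (sym n p q + ∑ r : PF n, bit ((r : ℕ) : ℤ) (q : ℕ)) +
          y 3 * bit ((q : ℕ) : ℤ) 3 = 0
      rw [e0, hsymp]
      have f4 : bit (δ : ℤ) q = (∑ r : PF n, bit ((q : ℕ) : ℤ) (r : ℕ)) +
          bit ((q : ℕ) : ℤ) p := by rw [← f3, f2]
      have k1 := h2 (y p * bit (δ : ℤ) q)
      have k2 := h2 (y p * bit ((q : ℕ) : ℤ) p)
      linear_combination hgoal - (y q + y p) * f1 - y p * f4 + k1 - k2
    | none =>
      rw [hext.2]
      show (∑ q : PF n, (y q + y p) * bit ((q : ℕ) : ℤ) 5) + y 3 * 1 = 0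
      have h5D : ¬ 5 ∣ n * p * 3 := by
        intro h
        rcases (Nat.Prime.dvd_mul h5p).mp h with h | h
        · exact h5d h
        · omega
      have h5B : ¬ 5 ∣ B := fun h => h5D (h.trans hb)
      have g0 : bit (B : ℤ) 5 = 0 := by
        apply bit_of_isSquare
        have hneg : IsSquare (-1 : ZMod 5) := ⟨2, by decide⟩
        rcases Int.natAbs_eq b with h | h
        · rw [← hB] at h
          rw [← h]; exact hb5
        · rw [← hB] at h
          have h' : (B : ℤ) = -1 * b := by rw [h]; ring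
          rw [h']
          push_cast
          exact hneg.mul hb5
      have g1 := (bit_dvd hD hb h5p).1 h5B
      rw [g0, hsum] at g1
      have hsq : bit ((n * p : ℕ) : ℤ) 5 = 0 := by
        apply bit_of_isSquare
        have h : (((n * p : ℕ) : ℤ) : ZMod 5) = (((n * p) % 5 : ℕ) : ZMod 5) := by
          simp
        rw [h]
        rcases hd5 with h' | h'
        · rw [h']; exact ⟨1, by decide⟩
        · rw [h']; exact ⟨2, by decide⟩
      have g2 := (bit_dvd hD (dvd_mul_right (n * p) 3) h5p).1 h5d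
      rw [hsq, hsum, if_pos (dvd_mul_left p n), if_neg h3d, add_zero] at g2
      have g3 : bit ((3 : ℕ) : ℤ) 5 = 1 := by
        unfold bit
        rw [if_pos (by norm_num)]
      have hy' : ∀ r : ℕ, (if r ∣ B then bit (r : ℤ) 5 else 0) = y r * bit (r : ℤ) 5 := by
        intro r
        simp only [y]
        split_ifs <;> simp
      rw [hy' p, hy' 3, g3, sum_congr rfl fun (r : PF n) _ => hy' r] at g1
      rw [sum_congr rfl fun (r : PF n) _ => if_pos ((hqn r).mul_right p)] at g2
      have e0 : (∑ q : PF n, (y q + y p) * bit ((q : ℕ) : ℤ) 5) =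
          (∑ r : PF n, y r * bit ((r : ℕ) : ℤ) 5) + y p * ∑ r : PF n, bit ((r : ℕ) : ℤ) 5 := by
        rw [mul_sum, ← sum_add_distrib]
        apply sum_congr rfl
        intro r _
        ring
      rw [e0]
      have k := h2 (y p * bit (p : ℤ) 5)
      linear_combination -g1 - y p * g2 - k
  have hy3 : y 3 = 0 := congrFun hv none
  have hyq : ∀ q : PF n, y q + y p = 0 := fun q => congrFun hv (some q)
  have h3B : ¬ 3 ∣ B := by
    intro h
    have : y 3 = 1 := if_pos h
    rw [hy3] at this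
    exact zero_ne_one this
  have hBd : B ∣ n * p := by
    apply Nat.Coprime.dvd_of_dvd_mul_right _ hb
    exact ((Nat.Prime.coprime_iff_not_dvd h3p).mpr h3B).symm
  have hBpf : B = ∏ r ∈ (n * p).primeFactors, if r ∣ B then r else 1 := (prod_if_dvd hd hBd).symm
  by_cases hpb : p ∣ B
  · right
    have hyp : y p = 1 := if_pos hpb
    have hBe : B = n * p := by
      rw [hBpf]
      conv_rhs => rw [← Nat.prod_primeFactors_of_squarefree hd]
      apply prod_congr rfl
      intro r hr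
      rw [if_pos]
      have hr1 := Nat.prime_of_mem_primeFactors hr
      rcases (Nat.Prime.dvd_mul hr1).mp (Nat.dvd_of_mem_primeFactors hr) with h | h
      · have h1 := hyq ⟨r, Nat.mem_primeFactors.mpr ⟨hr1, h, hn0⟩⟩
        rw [hyp] at h1
        by_contra hcon
        have h2 : y r = 0 := if_neg hcon
        rw [h2, zero_add] at h1
        exact one_ne_zero h1
      · rw [(Nat.prime_dvd_prime_iff_eq hr1 hp).mp h]; exact hpb
    rcases Int.natAbs_eq b with h | h
    · rw [← hB, hBe] at h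
      omega
    · rw [← hB, hBe] at h
      exact h
  · left
    have hyp : y p = 0 := if_neg hpb
    have hBe : B = 1 := by
      rw [hBpf]
      apply prod_eq_one
      intro r hr
      rw [if_neg]
      have hr1 := Nat.prime_of_mem_primeFactors hr
      rcases (Nat.Prime.dvd_mul hr1).mp (Nat.dvd_of_mem_primeFactors hr) with h | h
      · have h1 := hyq ⟨r, Nat.mem_primeFactors.mpr ⟨hr1, h, hn0⟩⟩
        rw [hyp, add_zero] at h1
        intro hcon
        have h2 : y r = 1 := if_pos hcon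
        rw [show y ((⟨r, Nat.mem_primeFactors.mpr ⟨hr1, h, hn0⟩⟩ : PF n) : ℕ) = y r from rfl,
          h2] at h1
        exact one_ne_zero h1
      · rw [(Nat.prime_dvd_prime_iff_eq hr1 hp).mp h]; exact hpb
    rcases Int.natAbs_eq b with h | h
    · rw [← hB, hBe] at h
      exact h
    · rw [← hB, hBe] at h
      omega

theorem stmtD1b : StmtD1b := by
  intro n hn ho h3 h5 p hp p5 hpn hok h4 hc
  obtain ⟨d, hdd⟩ : ∃ d, d = n * p := ⟨_, rfl⟩
  have hcop : Nat.Coprime n p := ((Nat.Prime.coprime_iff_not_dvd hp).mpr hpn).symm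
  have hd : Squarefree d := by rw [hdd]; exact (Nat.squarefree_mul hcop).mpr ⟨hn, hp.squarefree⟩
  rw [← hdd] at hok h4 ⊢
  have h3d : ¬ 3 ∣ d := by have := hok.1; omega
  have h5d : ¬ 5 ∣ d := by have := hok.2; omega
  intro X Y h hX
  obtain ⟨b, M, e, hb, hMe, hM, he, hXb⟩ := exists_sqf hX
  obtain ⟨N, hN⟩ := exists_int_eq (Y := Y) (α := (d : ℤ)) (β := 81 * (d : ℤ)) hb hM he hXb
    (by push_cast; rw [h])
  have hdsq : Squarefree (d : ℤ) := Int.squarefree_natCast.mpr hd
  have hbprime : ∀ p : ℕ, p.Prime → (p : ℤ) ∣ b → p ∣ d ∨ p = 3 := by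
    intro p hp hpb
    by_contra hcon
    rw [not_or] at hcon
    apply prime_dvd_gen hp hb hMe hN hpb
    · exact fun h => hcon.1 (by exact_mod_cast h)
    · intro h2
      rcases (Nat.prime_iff_prime_int.mp hp).dvd_or_dvd h2 with h2 | h2
      · have h4 : p ∣ 3 ^ 4 := by exact_mod_cast h2
        exact hcon.2 ((Nat.prime_dvd_prime_iff_eq hp Nat.prime_three).mp (hp.dvd_of_dvd_pow h4))
      · exact hcon.1 (by exact_mod_cast h2)
  have hBsq : Squarefree b.natAbs := Int.squarefree_natAbs.mpr hb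
  have hbD : b.natAbs ∣ d * 3 := by
    rw [← Nat.prod_primeFactors_of_squarefree hBsq]
    refine Finset.prod_primes_dvd _ (fun p hp => (Nat.prime_of_mem_primeFactors hp).prime)
      (fun p hp => ?_)
    rcases hbprime p (Nat.prime_of_mem_primeFactors hp)
      (Int.natCast_dvd.mpr (Nat.dvd_of_mem_primeFactors hp)) with h | h
    · exact h.mul_right 3
    · rw [h]; exact dvd_mul_left 3 d
  have hbo : b % 2 = 1 := by
    by_contra hcon
    have h1 : ((2 : ℕ) : ℤ) ∣ b := by push_cast; omega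
    rcases hbprime 2 Nat.prime_two h1 with h | h
    · omega
    · omega
  have hb4 : b % 4 = 1 :=
    (two_adic_odd (d := (d : ℤ)) hMe hbo (by omega) hN).1 (by omega)
  -- modulo 5
  have hb5 : IsSquare (b : ZMod 5) := by
    have h5b : ¬ ((5 : ℕ) : ℤ) ∣ b := by
      intro h
      rcases hbprime 5 Nat.prime_five h with h | h
      · exact h5d h
      · omega
    have hb0 : (b : ZMod 5) ≠ 0 := (ne_iff (p := 5)).mpr h5b
    have key1 : ∀ M e N : ZMod 5, (2 * M ^ 2 + 1 * e ^ 2) * (2 * M ^ 2 + 81 * 1 * e ^ 2) =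
        2 * N ^ 2 → M = 0 ∧ e = 0 := by decide
    have key2 : ∀ M e N : ZMod 5, (3 * M ^ 2 + 1 * e ^ 2) * (3 * M ^ 2 + 81 * 1 * e ^ 2) =
        3 * N ^ 2 → M = 0 ∧ e = 0 := by decide
    have key3 : ∀ M e N : ZMod 5, (2 * M ^ 2 + 4 * e ^ 2) * (2 * M ^ 2 + 81 * 4 * e ^ 2) =
        2 * N ^ 2 → M = 0 ∧ e = 0 := by decide
    have key4 : ∀ M e N : ZMod 5, (3 * M ^ 2 + 4 * e ^ 2) * (3 * M ^ 2 + 81 * 4 * e ^ 2) =
        3 * N ^ 2 → M = 0 ∧ e = 0 := by decide
    have h1 := congrArg (Int.cast : ℤ → ZMod 5) hN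
    push_cast at h1
    have hdz : (d : ZMod 5) = ((d % 5 : ℕ) : ZMod 5) := by simp
    have hcontra : ¬ ((M : ZMod 5) = 0 ∧ (e : ZMod 5) = 0) := by
      rintro ⟨g1, g2⟩
      exact cop_ndvd Nat.prime_five hMe ((zero_iff (p := 5)).mp g2) ((zero_iff (p := 5)).mp g1)
    have h5cases : ∀ z : ZMod 5, z = 0 ∨ z = 1 ∨ z = 2 ∨ z = 3 ∨ z = 4 := by decide
    rcases h5cases (b : ZMod 5) with h6 | h6 | h6 | h6 | h6
    · exact absurd h6 hb0
    · rw [h6]; exact ⟨1, by decide⟩
    · exfalso
      rw [h6, hdz] at h1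
      rcases hok.2 with h7 | h7
      · rw [h7] at h1; exact hcontra (key1 _ _ _ (by simpa using h1))
      · rw [h7] at h1; exact hcontra (key3 _ _ _ (by simpa using h1))
    · exfalso
      rw [h6, hdz] at h1
      rcases hok.2 with h7 | h7
      · rw [h7] at h1; exact hcontra (key2 _ _ _ (by simpa using h1))
      · rw [h7] at h1; exact hcontra (key4 _ _ _ (by simpa using h1))
    · rw [h6]; exact ⟨2, by decide⟩
  have hfin : b = 1 ∨ b = -((n * p : ℕ) : ℤ) := by
    refine lin2 hn ho h3 hp p5 hpn (by rw [← hdd]; exact h4) (by rw [← hdd]; exact hok.2) hc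
      (by rw [← hdd]; exact hbD) hb4 hb5 ?_
    intro q δ hq hqn hδ
    have hδ' : (d : ℤ) = q * (δ : ℤ) := by rw [hdd, hδ]; push_cast; rfl
    have hqδ : ¬ (q : ℤ) ∣ (δ : ℤ) := not_dvd_of_sqf hq hdsq hδ'
    constructor
    · intro hqb
      exact sq_of_ndvd hq hMe hN hδ' hqδ hqb
    · intro β hβ
      exact sq_of_dvd hq hb hMe hN hδ' hqδ hβ
  refine ⟨M / e, ?_⟩
  rcases hfin with h1 | h1
  · left; rw [hXb, h1]; push_cast; ring
  · right
    rw [← hdd] at h1
    rw [hXb, h1]; push_cast; ring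

/-- (D1) -/
theorem stmtD1 : StmtD1 := stmtD1_of Vale.Agent.P017.R3.H985.stmtD1a stmtD1b

end Vale.Agent.P017.R3.H816
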